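import Vale.Agent.P267H.HK
import Vale.Agent.P267D.Nef
import Vale.Agent.P267L.LT4
import Vale.Agent.P267M.Base

/-! The plurigenera of the finite cyclic covers vanish. -/

open Set Filter
open scoped Manifold ContDiff Topology

noncomputable section

namespace Vale.Agent.P267Q

open Vale.Agent.P267

variable {X M : Type} [TopologicalSpace X] [ChartedSpace C2 X] [T2Space X] [CompactSpace X]
  [IsManifold 𝓘(ℂ, C2) ω X] [TopologicalSpace M] [ChartedSpace C2 M] [T2Space M]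
  [IsManifold 𝓘(ℂ, C2) ω M] [ConnectedSpace M] {π : M → X} {g : M ≃ₜ M} {t : M → ℝ} {N : ℕ}

theorem per_zero (h : IsCover π g t) (hP : ∀ m : ℕ, 1 ≤ m → H0 id (canon X ^ m) = ⊥)
    (hN : 0 < N) {m : ℕ} (hm : 1 ≤ m) {S : M → ℂ}
    (hS : ∀ p, HolAt (pull π (canon X) p ^ m * S) p) (hg : ∀ q, S ((g ^ N) q) = S q) : S = 0 := by
  by_contra h0
  obtain ⟨C, rfl, rfl⟩ := h.nef_cov
  have hb := (Cov.canon_kf h).1
  have hb' : IsBundle HolAt (pull π (canon X) ^ m) := fun p => by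
    filter_upwards [hb p] with q hq
    refine ⟨pow_ne_zero m hq.1, (hq.2.pow m).congr (Eventually.of_forall fun x => ?_)⟩
    simp only [Pi.pow_apply, Pi.div_apply, div_pow]
  have pz : ∀ (i : ℕ) q, π ((C.g ^ i) q) = π q := fun i q => by
    rw [← zpow_natCast, P267M.pi_k h]
  let F : ℕ → M → M → ℂ := fun i p => pull π (canon X) p ^ m * S ∘ (C.g ^ i : M ≃ₜ M)
  have eF : ∀ i p, F i p = (pull π (canon X) ((C.g ^ i) p) ^ m * S) ∘ (C.g ^ i : M ≃ₜ M) :=
    fun i p => funext fun q => by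
      simp only [F, Pi.mul_apply, Pi.pow_apply, Function.comp_apply, pull, pz]
  have a1 : ∀ i p, HolAt (F i p) p := fun i p => by
    have b := P267M.g_hol h i p
    rw [zpow_natCast] at b
    rw [eF]
    exact holAt_iff_contMDiffAt.2 ((holAt_iff_contMDiffAt.1 (hS _)).comp p b)
  have a2 : ∀ i p, ¬ F i p =ᶠ[𝓝 p] 0 := fun i p e => by
    refine Sec.ne_germ C hb' (s := S) hS h0 ((C.g ^ i) p) ?_
    rw [eF] at e
    rw [← (C.g ^ i : M ≃ₜ M).map_nhds_eq p]
    exact e
  have a3 : ∀ p (W : Finset ℕ), HolAt (∏ i ∈ W, F i p) p ∧ ¬ (∏ i ∈ W, F i p) =ᶠ[𝓝 p] 0 := by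
    intro p W
    induction W using Finset.induction_on with
    | empty => exact ⟨holAt_one, fun e => one_ne_zero e.eq_of_nhds⟩
    | insert i W hi ih =>
      rw [Finset.prod_insert hi]
      exact ⟨(a1 i p).mul ih.1, (a1 i p).mul_ne ih.1 (a2 i p) ih.2⟩
  let R : M → ℂ := fun q => ∏ i ∈ Finset.range N, S ((C.g ^ i) q)
  have r1 : ∀ q, R (C.g q) = R q := fun q => by
    obtain ⟨n, rfl⟩ : ∃ n, N = n + 1 := ⟨N - 1, by omega⟩
    have e : ∀ i : ℕ, (C.g ^ i) (C.g q) = (C.g ^ (i + 1)) q := fun i => by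
      rw [pow_succ]
      rfl
    simp only [R, e]
    rw [Finset.prod_range_succ, Finset.prod_range_succ', hg]
    rfl
  have r2 : ∀ q, R (Function.surjInv h.surj (π q)) = R q := fun q => by
    obtain ⟨k, hk⟩ := (h.fib _ q).1 (Function.surjInv_eq h.surj (π q))
    exact (HKh_inv r1 k _).symm.trans (by rw [hk])
  have r3 : ∀ p, ∏ i ∈ Finset.range N, F i p = pull π (canon X) p ^ (m * N) * R := fun p =>
    funext fun q => by
      simp only [F, R, Finset.prod_apply, Pi.mul_apply, Pi.pow_apply, Function.comp_apply,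
        Finset.prod_mul_distrib, Finset.prod_const, Finset.card_range, pow_mul]
  have r4 : (fun x => R (Function.surjInv h.surj x)) ∈ H0 id (canon X ^ (m * N)) := by
    refine Submodule.subset_span ⟨rfl, fun x => ?_⟩
    obtain ⟨p, rfl⟩ := h.surj x
    refine h.hol_down ((r3 p ▸ (a3 p (Finset.range N)).1).congr (Eventually.of_forall fun q => ?_))
    simp only [Function.comp_apply, Pi.mul_apply, Pi.pow_apply, r2, pull]
  rw [hP _ (Nat.mul_pos hm hN), Submodule.mem_bot] at r4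
  obtain ⟨p⟩ : Nonempty M := inferInstance
  refine (a3 p (Finset.range N)).2 (Eventually.of_forall fun q => ?_)
  rw [r3, Pi.mul_apply, ← r2, show R _ = 0 from congrFun r4 (π q), mul_zero]
  rfl

theorem pluri (h : IsCover π g t) (hP : ∀ m : ℕ, 1 ≤ m → H0 id (canon X ^ m) = ⊥) (hN : 0 < N)
    {Y : Type} [TopologicalSpace Y] [ChartedSpace C2 Y] [T2Space Y] [IsManifold 𝓘(ℂ, C2) ω Y]
    [ConnectedSpace Y] {p1 : M → Y} (h1 : IsCyclic p1 (g ^ N))
    (hk : pull p1 (canon Y) = pull π (canon X)) (m : ℕ) (hm : 1 ≤ m) :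
    H0 id (canon Y ^ m) = ⊥ := by
  refine (Submodule.eq_bot_iff _).2 fun s hs => ?_
  have h2 := (H0_mem.1 hs).2
  have e := per_zero h hP hN hm (S := s ∘ p1) (fun p => by
    rw [← hk]
    exact holAt_iff_contMDiffAt.2 ((holAt_iff_contMDiffAt.1 (h2 (p1 p))).comp p
      (h1.loc p).contMDiffAt)) fun q => congrArg s ((h1.fib _ _).2 ⟨1, by rw [zpow_one]⟩).symm
  funext y
  obtain ⟨p, rfl⟩ := h1.surj y
  exact congrFun e p

end Vale.Agent.P267Q
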