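import Vale.Agent.P267D.Nef

/-! P267: the rank of the lattice of a finite cover. -/

open scoped Manifold ContDiff Topology
open Filter Metric Set

noncomputable section

namespace Vale.Agent.P267Q

open Vale.Agent.P267

variable {X M : Type} [TopologicalSpace X] [ChartedSpace C2 X] [T2Space X] [CompactSpace X]
  [IsManifold 𝓘(ℂ, C2) ω X] [TopologicalSpace M] [ChartedSpace C2 M] [T2Space M]
  [IsManifold 𝓘(ℂ, C2) ω M] {π : M → X} {g : M ≃ₜ M} {t : M → ℝ} {N : ℕ}

theorem rank (h : IsCover π g t) {n r : ℕ} {L : Fin n → M → M → ℂ}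
    {c : (M → M → ℂ) → Fin n → ℤ} {L1 : Fin r → M → M → ℂ} {c1 : (M → M → ℂ) → Fin r → ℤ}
    (H1 : IsLattice g (pull π (canon X)) L c) (HN : IsLattice (g ^ N) (pull π (canon X)) L1 c1)
    (hN : 0 < N) : r = n * N := by
  obtain ⟨C, rfl, rfl⟩ := h.nef_cov
  rw [← pow_one C.g] at H1
  obtain ⟨Φ, a⟩ := Cov.lat_of h one_pos H1
  obtain ⟨Ψ, b⟩ := Cov.lat_of h hN HN
  have hS : C.SFr C.kf := Cov.hFr_kf.sFr (by norm_num)
  have a1 := a.pair _ _ _ _ hS (Cov.pd_kf 1) hS (Cov.pd_kf 1) hS.can (Cov.pd_kf 1).can hS.can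
    (Cov.pd_kf 1).can
  have b1 := b.pair _ _ _ _ hS (Cov.pd_kf N) hS (Cov.pd_kf N) hS.can (Cov.pd_kf N).can hS.can
    (Cov.pd_kf N).can
  have e : ∀ k : ℕ, C.cv (C.can C.kf) k = C.cv (C.can C.kf) 0 := fun k => by
    induction k with
    | zero => rfl
    | succ k ih =>
      rw [← ih, ← (Cov.pd_kf (C := C) 1).can.cv]
      simp
  have a2 := a.canonical
  have b2 := b.canonical
  simp only [Cov.pr, e, a2, b2, Finset.sum_const, Finset.card_range, one_smul, Pi.one_apply,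
    mul_one, Finset.card_univ, Fintype.card_fin, nsmul_eq_mul] at a1 b1
  rw [a1, mul_neg, neg_inj] at b1
  rw [mul_comm]
  exact_mod_cast b1.symm

end Vale.Agent.P267Q
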