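import Vale.Agent.P267Q.QB
import Vale.Agent.P267Q.QC
import Vale.Agent.P267Q.RMain
import Vale.Agent.P267H.Main
import Vale.Agent.P267L.Top

/-! The lattices of the finite cyclic covers. -/

open Set Filter
open scoped Manifold ContDiff Topology

noncomputable section

namespace Vale.Agent.P267Q

open Vale.Agent.P267

variable {X M : Type} [TopologicalSpace X] [ChartedSpace C2 X] [T2Space X] [CompactSpace X]
  [IsManifold 𝓘(ℂ, C2) ω X] [TopologicalSpace M] [ChartedSpace C2 M] [T2Space M]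
  [IsManifold 𝓘(ℂ, C2) ω M] [ConnectedSpace M] {π : M → X} {g : M ≃ₜ M} {t : M → ℝ} {n : ℕ}
  {L : Fin n → M → M → ℂ} {c : (M → M → ℂ) → Fin n → ℤ}

variable (X M) in
/-- Every surface of class VII between `M` and `X` carries a lattice. -/
def CovLat : Prop :=
  ∀ (Y : Type) [TopologicalSpace Y] [ChartedSpace C2 Y], IsSurface Y → IsClassVII Y →
    ∀ w : Y → X, IsLocalDiffeomorph 𝓘(ℂ, C2) 𝓘(ℂ, C2) ω w → ∀ (p : M → Y) (G : M ≃ₜ M),
      IsCyclic p G → ∃ (r : ℕ) (L : Fin r → M → M → ℂ) (c : (M → M → ℂ) → Fin r → ℤ),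
        IsLattice G (pull p (canon Y)) L c

theorem lattices_cov (hC : CovLat X M) (h : IsCover π g t)
    (hP : ∀ m : ℕ, 1 ≤ m → H0 id (canon X ^ m) = ⊥) (hL : IsLattice g (pull π (canon X)) L c)
    (N : ℕ) (hN : 0 < N) : ∃ (L1 : Fin (n * N) → M → M → ℂ)
      (c1 : (M → M → ℂ) → Fin (n * N) → ℤ), IsLattice (g ^ N) (pull π (canon X)) L1 c1 := by
  obtain ⟨Y, _, _, p1, hY, h1, hk, w, hw, -⟩ := quot h hN
  obtain ⟨a1, a2, a3, a4⟩ := id hY
  obtain ⟨r, L1, c1, H⟩ := hC Y hY ⟨betti_quot h hP hL hN h1, pluri h hP hN h1 hk⟩ w hw p1 _ h1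
  rw [hk] at H
  obtain rfl := rank h hL H hN
  exact ⟨L1, c1, H⟩

theorem lattices_lat (hC : CovLat X M) (h : IsCyclic π g) (hb : firstBetti X = 1)
    (hP : ∀ m : ℕ, 1 ≤ m → H0 id (canon X ^ m) = ⊥) (hL : IsLattice g (pull π (canon X)) L c)
    (N : ℕ) (hN : 0 < N) : ∃ (L1 : Fin (n * N) → M → M → ℂ)
      (c1 : (M → M → ℂ) → Fin (n * N) → ℤ), IsLattice (g ^ N) (pull π (canon X)) L1 c1 := by
  rcases h.drift hb hL with ⟨t, ht⟩ | ⟨t, ht⟩
  · exact lattices_cov hC ht hP hL N hN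
  · obtain ⟨L1, c1, H⟩ := lattices_cov hC ht hP (hL.inv h.hol h.hol_inv) N hN
    exact ⟨L1, c1, by simpa only [inv_inv] using h.inv.lat_inv H⟩

theorem lattices_of (hC : ∀ (Y : Type) [TopologicalSpace Y] [ChartedSpace C2 Y], IsSurface Y →
      IsClassVII Y → ∀ w : Y → X, IsLocalDiffeomorph 𝓘(ℂ, C2) 𝓘(ℂ, C2) ω w →
      ∀ (p : M → Y) (G : M ≃ₜ M), IsCyclic p G → ∃ (L : Fin (secondBetti Y) → M → M → ℂ)
        (c : (M → M → ℂ) → Fin (secondBetti Y) → ℤ), IsLattice G (pull p (canon Y)) L c)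
    (hX : IsSurface X) (h7 : IsClassVII X) (h : IsCyclic π g) (N : ℕ) (hN : 0 < N) :
    ∃ (L : Fin (secondBetti X * N) → M → M → ℂ) (c : (M → M → ℂ) → Fin (secondBetti X * N) → ℤ),
      IsLattice (g ^ N) (pull π (canon X)) L c := by
  obtain ⟨L, c, hL⟩ := hC X hX h7 id (Diffeomorph.refl 𝓘(ℂ, C2) X ω).isLocalDiffeomorph π g h
  exact lattices_lat (fun Y _ _ a1 a2 w a3 p G a4 => ⟨_, hC Y a1 a2 w a3 p G a4⟩) h h7.1 h7.2
    hL N hN

end Vale.Agent.P267Q
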