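import Vale.Agent.P267D.Nef
import Vale.Agent.P267D.DK

/-! P267: the canonical bundle of a finite cover. -/

open scoped Manifold ContDiff Topology
open Filter Metric Set

noncomputable section

namespace Vale.Agent.P267Q

open Vale.Agent.P267

set_option linter.unusedSectionVars false

variable {X M : Type} [TopologicalSpace X] [ChartedSpace C2 X] [T2Space X] [CompactSpace X]
  [IsManifold 𝓘(ℂ, C2) ω X] [TopologicalSpace M] [ChartedSpace C2 M] [T2Space M]
  [IsManifold 𝓘(ℂ, C2) ω M] {π : M → X} {g : M ≃ₜ M} {t : M → ℝ} {N : ℕ}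

/-- The Jacobian of the projection in charts. -/
def jac (π : M → X) (P : OpenPartialHomeomorph M C2) (x : X) (q : M) : ℂ :=
  (fderiv ℂ (chartAt C2 x ∘ π ∘ P.symm) (P q)).det

theorem jac_base (h : IsCover π g t) {P : OpenPartialHomeomorph M C2} (hP : IsCh P) {q : M}
    (hq : q ∈ P.source) {x : X} (hx : π q ∈ (chartAt C2 x).source) :
    jac π P (π q) q = jac π P x q * canon X x (π q) := by
  have ev : ∀ᶠ y in 𝓝 q, π y ∈ (chartAt C2 x).source :=
    h.loc.contMDiff.continuous.continuousAt.preimage_mem_nhds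
      ((chartAt C2 x).open_source.mem_nhds hx)
  refine gc_det (h.chart hP hq hx).1 (by simp only [Function.comp_apply, P.left_inv hq])
    ((isCh_chartAt x).tr (isCh_chartAt (π q)) hx (mem_chart_source C2 _)) ?_
  filter_upwards [(P.tendsto_symm hq).eventually ev] with z hz
  simp only [Function.comp_apply, (chartAt C2 x).left_inv hz]

theorem jac_move (h : IsCover π g t) {γ : M → M} (hγ : ContMDiff 𝓘(ℂ, C2) 𝓘(ℂ, C2) ω γ)
    (e : ∀ q, π (γ q) = π q) {P P' : OpenPartialHomeomorph M C2} (hP : IsCh P) (hP' : IsCh P')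
    {q : M} (hq : q ∈ P.source) (hq' : γ q ∈ P'.source) :
    jac π P (π q) q = (fderiv ℂ (P' ∘ γ ∘ P.symm) (P q)).det * jac π P' (π (γ q)) (γ q) := by
  have ev : ∀ᶠ y in 𝓝 q, γ y ∈ P'.source :=
    hγ.continuous.continuousAt.preimage_mem_nhds (P'.open_source.mem_nhds hq')
  refine gc_det (gc_an (hγ q) hP hq hP' hq') (by simp only [Function.comp_apply, P.left_inv hq])
    (h.chart hP' hq' (mem_chart_source C2 _)).1 ?_
  filter_upwards [(P.tendsto_symm hq).eventually ev] with z hz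
  simp only [Function.comp_apply, P'.left_inv hz, e]

theorem jac_hol (h : IsCover π g t) (p : M) : HolAt (jac π (chartAt C2 p) (π p)) p :=
  (isCh_chartAt p).hol_fun (mem_chart_source C2 p) (analyticAt_det
    (h.chart (isCh_chartAt p) (mem_chart_source C2 p) (mem_chart_source C2 _)).1)

variable {Y : Type} [TopologicalSpace Y] [ChartedSpace C2 Y] [T2Space Y] [CompactSpace Y]
  [IsManifold 𝓘(ℂ, C2) ω Y] {p1 : M → Y}

theorem canon_iso (h : IsCover π g t) {G : M ≃ₜ M} {s : M → ℝ} (h1 : IsCover p1 G s)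
    (e : ∀ q, π (G q) = π q) : ∃ l : M → ℂ, (∀ p, l p ≠ 0) ∧ (∀ p, l (G p) = l p) ∧
      ∀ p, ∃ J : M → ℂ, HolAt J p ∧ J p ≠ 0 ∧
        ∀ᶠ q in 𝓝 p, pull p1 (canon Y) p q * l q = J q * pull π (canon X) p q := by
  have c := fun q : M => isCh_chartAt q
  have m := fun q : M => mem_chart_source C2 q
  have n0 := fun q => (h.chart (c q) (m q) (mem_chart_source C2 _)).2
  have n1 := fun q => (h1.chart (c q) (m q) (mem_chart_source C2 _)).2
  refine ⟨fun q => jac π (chartAt C2 q) (π q) q / jac p1 (chartAt C2 q) (p1 q) q,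
    fun q => div_ne_zero (n0 q) (n1 q), fun q => ?_, fun p =>
      ⟨_, (jac_hol h p).div (jac_hol h1 p) (n1 p), div_ne_zero (n0 p) (n1 p), ?_⟩⟩
  · have a0 := jac_move h h1.hol e (c q) (c (G q)) (m q) (m _)
    have a1 := jac_move h1 h1.hol (fun y => by simpa using h1.pi_gz 1 y) (c q) (c (G q)) (m q) (m _)
    have a2 := left_ne_zero_of_mul (a0.symm.trans_ne (n0 q))
    simp only [a0, a1, mul_div_mul_left _ _ a2]
  · filter_upwards [chart_source_mem_nhds C2 p,
      h.loc.contMDiff.continuous.continuousAt.preimage_mem_nhds (chart_source_mem_nhds C2 (π p)),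
      h1.loc.contMDiff.continuous.continuousAt.preimage_mem_nhds (chart_source_mem_nhds C2 (p1 p))]
      with q b1 b2 b3
    have a0 := jac_move h contMDiff_id (fun _ => rfl) (c p) (c q) b1 (m q)
    have a1 := jac_move h1 contMDiff_id (fun _ => rfl) (c p) (c q) b1 (m q)
    have a2 := jac_base h (c p) b1 b2
    have a3 := jac_base h1 (c p) b1 b3
    have a4 : jac p1 (chartAt C2 p) (p1 q) q ≠ 0 := (h1.chart (c p) b1 (mem_chart_source C2 _)).2
    have a5 := left_ne_zero_of_mul (a1 ▸ a4)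
    have a6 := mul_ne_zero_iff.1 (a3 ▸ a4)
    simp only [id] at a0 a1
    rw [← mul_div_mul_left _ _ a5, ← a0, ← a1, a2, a3]
    simp only [pull, Pi.div_apply]
    field_simp [a6.1, a6.2]

theorem cover_pow (h : IsCover π g t) (hN : 0 < N) (h1 : IsCyclic p1 (g ^ N)) :
    IsCover p1 (g ^ N) fun q => (N : ℝ)⁻¹ * t q := by
  have h0 : (0 : ℝ) < N := Nat.cast_pos.2 hN
  refine ⟨h1.loc, h1.surj, h1.fib, h1.hol, h1.hol_inv, fun p =>
    ((h.smooth p).smul (N : ℂ)⁻¹).congr (.of_forall fun q => by simp), fun p => ?_, fun p => ?_⟩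
  · rw [← zpow_natCast, h.t_gz, mul_add, Int.cast_natCast, inv_mul_cancel₀ h0.ne']
  · obtain ⟨v, hv⟩ := h.drift p
    refine ⟨v, ?_⟩
    have a : ContDiffAt ℝ ∞ (t ∘ (chartAt C2 p).symm) (chartAt C2 p p) :=
      Complex.reCLM.contDiff.contDiffAt.comp _ (h.smooth p).self_of_nhds
    have e := lev_eq (contDiffAt_const (c := (N : ℝ)⁻¹).mul a) v
    rw [P271A.Lev_const_mul a, mul_left_comm, ← lev_eq a] at e
    exact (mul_pos (inv_pos.2 h0) hv).trans_eq e.symm

theorem transfer (h : IsCover π g t) (hN : 0 < N) (h1 : IsCyclic p1 (g ^ N)) {r : ℕ}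
    {L : Fin r → M → M → ℂ} {c : (M → M → ℂ) → Fin r → ℤ}
    (H : IsLattice (g ^ N) (pull p1 (canon Y)) L c) :
    IsLattice (g ^ N) (pull π (canon X)) L c := by
  have h2 := cover_pow h hN h1
  obtain ⟨l, l0, l1, l2⟩ := canon_iso h h2 fun q => by rw [← zpow_natCast, h.pi_gz]
  have hk : IsBundle HolAt (pull p1 (canon Y)) := by
    obtain ⟨C, e1, e2⟩ := h2.nef_cov
    rw [← e1, ← e2] at h2
    exact (Cov.canon_kf h2).1
  have hk' : pull (g ^ N : M ≃ₜ M) (pull p1 (canon Y)) = pull p1 (canon Y) := by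
    funext p q
    have e := h2.pi_gz 1
    simp only [zpow_one] at e
    simp only [pull, e]
  have e : c (pull π (canon X)) = c (pull p1 (canon Y)) := by
    obtain ⟨C, rfl, rfl⟩ := h.nef_cov
    obtain ⟨n, P, ψ, hP, hCh, -⟩ := C.partition hN
    choose Φ l₁ hΦ hΦp hl0 hlp hls using fun j => Cov.frames_of hN (H.hol j).1 (H.hol j).2
      fun i => H.frame j (C.ch i) 4 (C.isCh i).hol (C.ch_target i)
    have hS : ∀ j, C.SFr (Φ j) := fun j => (hΦ j).sFr (by norm_num)
    have hϑ : ∀ j, ∃ ϑ, IsConnection (C.g ^ N : M ≃ₜ M) (L j) ϑ := fun j => by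
      obtain ⟨ϑ, hϑ, -⟩ := ((hS j).can.toS (hS j) (hΦp j).can).equiv h1.hol (hS j).bundle
        (LT5_sm (H.hol j).1) (hΦp j).bundle (H.hol j).2 (hl0 j) (hlp j) (hls j)
      exact ⟨ϑ, hϑ⟩
    have hF : C.SFr C.kf := Cov.hFr_kf.sFr (by norm_num)
    have key : ∀ {v : M → M → ℂ} {l : M → ℂ},
        IsBundle HolAt v → pull (C.g ^ N : M ≃ₜ M) v = v → (∀ p, l p ≠ 0) →
        (∀ p, l ((C.g ^ N) p) = l p) → (∀ p, SmAt (v p * l / C.bun C.kf p) p) →
        c (C.bun C.kf) = c v := fun hv hv' h0 a1 a2 => LT5_key h1.hol H hP hCh hϑ hF.bundle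
      (LT5_sm hv) (Cov.pd_kf N).bundle hv' (hF.can.toS hF (Cov.pd_kf N).can) h0 a1 a2
    obtain ⟨k1, k2, l', k3, k4, k5⟩ := Cov.canon_kf h
    refine (key k1 (k2 N) k3 (k4 N) k5).symm.trans (key (l := l * l') hk hk'
      (fun p => mul_ne_zero (l0 p) (k3 p)) (fun p => congrArg₂ (· * ·) (l1 p) (k4 N p)) fun p => ?_)
    obtain ⟨J, j1, -, j3⟩ := l2 p
    refine (j1.smAt.mul (k5 p)).congr ?_
    filter_upwards [j3] with q hq
    simp only [Pi.mul_apply, Pi.div_apply]
    rw [← mul_assoc, hq, mul_assoc, mul_div_assoc (J q)]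
  refine ⟨H.hol, H.frame, H.basis, e.trans H.canonical, H.pair, fun u hu hu' => ?_⟩
  have := H.rr u hu hu'
  rw [Euler, ← H0_rescale l0 l1 l2, ← e] at this
  exact this

end Vale.Agent.P267Q
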